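import Vale.Agent.P073Z.Sk2
import Vale.Agent.P073Z.A1b
import Vale.Agent.P073Z.SHELL

/-!
# Lengths of curves, constant speed parametrisation
-/

open Set Metric Topology Filter MeasureTheory
open scoped ENNReal NNReal

namespace P073

open Sh

namespace Sq

section Len

variable {T : Type*} [MetricSpace T] [MeasurableSpace T] [BorelSpace T]

/-- a curve dominated by a monotone function -/
theorem hm_le_of_mono {f : ℝ → T} {m : ℝ → ℝ} {a b : ℝ}
    (h : ∀ s ∈ Icc a b, ∀ t ∈ Icc a b, s ≤ t → dist (f s) (f t) ≤ m t - m s) :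
    μH[1] (f '' Icc a b) ≤ ENNReal.ofReal (m b - m a) := by
  have h1 : ∀ s ∈ Icc a b, ∀ t ∈ Icc a b, dist (f s) (f t) ≤ dist (m s) (m t) := by
    intro s hs t ht
    rcases le_total s t with hst | hst
    · exact (h s hs t ht hst).trans (by rw [dist_comm, Real.dist_eq]; exact le_abs_self _)
    · rw [dist_comm]
      exact (h t ht s hs hst).trans (by rw [Real.dist_eq]; exact le_abs_self _)
  have h2 : ∀ y ∈ m '' Icc a b, Function.invFunOn m (Icc a b) y ∈ Icc a b ∧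
      m (Function.invFunOn m (Icc a b) y) = y := fun y hy =>
    Function.invFunOn_pos hy
  have h3 : LipschitzOnWith 1 (f ∘ Function.invFunOn m (Icc a b)) (m '' Icc a b) := by
    refine LipschitzOnWith.of_dist_le_mul fun y hy z hz => ?_
    have h4 := h1 _ (h2 y hy).1 _ (h2 z hz).1
    rw [(h2 y hy).2, (h2 z hz).2] at h4
    simpa using h4
  have h4 : f '' Icc a b ⊆ (f ∘ Function.invFunOn m (Icc a b)) '' (m '' Icc a b) := by
    rintro _ ⟨s, hs, rfl⟩
    refine ⟨m s, ⟨s, hs, rfl⟩, ?_⟩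
    have h5 := h1 _ (h2 _ ⟨s, hs, rfl⟩).1 s hs
    rw [(h2 _ ⟨s, hs, rfl⟩).2, dist_self] at h5
    exact dist_le_zero.1 h5
  have h5 : m '' Icc a b ⊆ Icc (m a) (m b) := by
    rintro _ ⟨s, hs, rfl⟩
    have hab : a ≤ b := hs.1.trans hs.2
    have k1 := h a (left_mem_Icc.2 hab) s hs hs.1
    have k2 := h s hs b (right_mem_Icc.2 hab) hs.2
    exact ⟨by linarith [dist_nonneg (x := f a) (y := f s)],
      by linarith [dist_nonneg (x := f s) (y := f b)]⟩
  refine (measure_mono h4).trans ((h3.hausdorffMeasure_image_le zero_le_one).trans ?_)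
  rw [ENNReal.coe_one, ENNReal.one_rpow, one_mul, hausdorffMeasure_real, ← Real.volume_Icc]
  exact measure_mono h5

/-- connected sets are at least as long as their diameter -/
theorem edist_le_hm {A : Set T} (hA : IsPreconnected A) {p q : T} (hp : p ∈ A) (hq : q ∈ A) :
    edist p q ≤ μH[1] A := by
  have h1 : LipschitzWith 1 fun z : T => dist p z := LipschitzWith.dist_right p
  have h2 : Icc (0 : ℝ) (dist p q) ⊆ (fun z : T => dist p z) '' A := by
    have h3 := (hA.image _ h1.continuous.continuousOn).ordConnected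
    exact h3.out ⟨p, hp, dist_self p⟩ ⟨q, hq, rfl⟩
  have h4 := h1.hausdorffMeasure_image_le zero_le_one A
  rw [ENNReal.coe_one, ENNReal.one_rpow, one_mul, hausdorffMeasure_real] at h4
  refine le_trans ?_ ((measure_mono h2).trans h4)
  rw [Real.volume_Icc, sub_zero, edist_dist]

end Len

theorem locCone_segment {E : Type} [NormedAddCommGroup E] [NormedSpace ℝ E]
    [FiniteDimensional ℝ E] (a b : E) : LocCone (segment ℝ a b) := by
  classical
  have h := poly ({a, b} : Finset E)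
  rwa [Finset.coe_pair, convexHull_pair] at h

theorem isCompact_segment {E : Type} [NormedAddCommGroup E] [NormedSpace ℝ E] (a b : E) :
    IsCompact (segment ℝ a b) := by
  rw [segment_eq_image_lineMap]
  exact isCompact_Icc.image AffineMap.lineMap_continuous

/-- the image of a segment under a PL map has finite length -/
theorem hm_lt_top {a b : E3} {g : E3 → E3} (hg : PLOn g (segment ℝ a b)) :
    μH[1] (g '' segment ℝ a b) < ⊤ := by
  obtain ⟨M, hM⟩ := lip (isCompact_segment a b) (locCone_segment a b) hg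
  refine (hM.hausdorffMeasure_image_le zero_le_one).trans_lt ?_
  rw [hausdorffMeasure_segment, ENNReal.rpow_one]
  exact ENNReal.mul_lt_top ENNReal.coe_lt_top (edist_lt_top _ _)

/-- the segment as an arc, with the affine parametrisation -/
theorem exists_line {x y : E3} (h : x ≠ y) : ∃ ψ : ConHomeo (Icc (0 : ℝ) 1) (segment ℝ x y),
    ψ.toFun = AffineMap.lineMap x y :=
  exists_ofCompact isCompact_Icc _ AffineMap.lineMap_continuous.continuousOn
    (AffineMap.lineMap_injective ℝ h).injOn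
    (conicalOn_of_affine _ (Convex.conicalSet (convex_Icc 0 1))) (segment_eq_image_lineMap ℝ x y).symm

section Speed

variable {A : Set E3} (φ : ConHomeo (Icc (0 : ℝ) 1) A)

/-- the length of a piece -/
noncomputable def len (s t : ℝ) : ℝ := (μH[1] (φ.toFun '' Icc s t)).toReal

theorem exists_lip : ∃ M : ℝ≥0, ∀ s ∈ Icc (0 : ℝ) 1, ∀ t ∈ Icc (0 : ℝ) 1,
    μH[1] (φ.toFun '' Icc s t) ≤ M * ENNReal.ofReal (t - s) := by
  have h0 : LocCone (Icc (0 : ℝ) 1) := by
    rw [← segment_eq_Icc zero_le_one]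
    exact locCone_segment 0 1
  obtain ⟨M, hM⟩ := lip isCompact_Icc h0 ⟨φ.cont, φ.conical⟩
  refine ⟨M, fun s hs t ht => ?_⟩
  have h1 := (hM.mono (Icc_subset_Icc hs.1 ht.2)).hausdorffMeasure_image_le zero_le_one
  rwa [ENNReal.rpow_one, hausdorffMeasure_real, Real.volume_Icc] at h1

theorem hm_ne_top {s t : ℝ} (hs : s ∈ Icc (0 : ℝ) 1) (ht : t ∈ Icc (0 : ℝ) 1) :
    μH[1] (φ.toFun '' Icc s t) ≠ ⊤ := by
  obtain ⟨M, hM⟩ := exists_lip φ
  exact ((hM s hs t ht).trans_lt (ENNReal.mul_lt_top ENNReal.coe_lt_top ENNReal.ofReal_lt_top)).ne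

theorem len_add {s t : ℝ} (hs : s ∈ Icc (0 : ℝ) 1) (ht : t ∈ Icc (0 : ℝ) 1) (hst : s ≤ t) :
    len φ 0 t = len φ 0 s + len φ s t := by
  have h0 : (0 : ℝ) ∈ Icc (0 : ℝ) 1 := left_mem_Icc.2 zero_le_one
  rw [len, len, len, ← ENNReal.toReal_add (hm_ne_top φ h0 hs) (hm_ne_top φ hs ht),
    ← Icc_union_Icc_eq_Icc hs.1 hst, image_union]
  congr 1
  refine measure_union₀ ?_ ?_
  · exact ((isCompact_Icc.image_of_continuousOn
      (φ.cont.mono (Icc_subset_Icc hs.1 ht.2))).isClosed.measurableSet).nullMeasurableSet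
  · have h2 : μH[1] ({φ.toFun s} : Set E3) = 0 := by
      rw [← segment_same ℝ, hausdorffMeasure_segment, edist_self]
    refine measure_mono_null ?_ h2
    rintro _ ⟨⟨u, hu, rfl⟩, v, hv, h⟩
    have h1 : v = u := φ.injOn ⟨hs.1.trans hv.1, hv.2.trans ht.2⟩ ⟨hu.1, hu.2.trans hs.2⟩ h
    rw [mem_singleton_iff, le_antisymm hu.2 (h1 ▸ hv.1)]

theorem dist_le_len {s t : ℝ} (hs : s ∈ Icc (0 : ℝ) 1) (ht : t ∈ Icc (0 : ℝ) 1) (hst : s ≤ t) :
    dist (φ.toFun s) (φ.toFun t) ≤ len φ s t := by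
  rw [dist_edist, len]
  refine ENNReal.toReal_mono (hm_ne_top φ hs ht) (edist_le_hm ?_ ⟨s, left_mem_Icc.2 hst, rfl⟩
    ⟨t, right_mem_Icc.2 hst, rfl⟩)
  exact isPreconnected_Icc.image _ (φ.cont.mono (Icc_subset_Icc hs.1 ht.2))

theorem len_strictMono : StrictMonoOn (len φ 0) (Icc 0 1) := fun s hs t ht hst => by
  have h1 : 0 < dist (φ.toFun s) (φ.toFun t) := dist_pos.2 fun h => hst.ne (φ.injOn hs ht h)
  linarith [len_add φ hs ht hst.le, dist_le_len φ hs ht hst.le]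

theorem len_cont : ContinuousOn (len φ 0) (Icc 0 1) := by
  obtain ⟨M, hM⟩ := exists_lip φ
  have h1 : ∀ s ∈ Icc (0 : ℝ) 1, ∀ t ∈ Icc (0 : ℝ) 1, s ≤ t →
      dist (len φ 0 s) (len φ 0 t) ≤ M * dist s t := by
    intro s hs t ht hst
    have h2 : len φ s t ≤ M * (t - s) := by
      have h3 := ENNReal.toReal_mono
        (ENNReal.mul_lt_top ENNReal.coe_lt_top ENNReal.ofReal_lt_top).ne (hM s hs t ht)
      rwa [ENNReal.toReal_mul, ENNReal.toReal_ofReal (sub_nonneg.2 hst)] at h3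
    have h3 : 0 ≤ len φ s t := ENNReal.toReal_nonneg
    rw [len_add φ hs ht hst, dist_comm s t, Real.dist_eq t s, abs_of_nonneg (sub_nonneg.2 hst),
      Real.dist_eq, abs_sub_comm, add_sub_cancel_left, abs_of_nonneg h3]
    exact h2
  refine (LipschitzOnWith.of_dist_le_mul (K := M) fun s hs t ht => ?_).continuousOn
  rcases le_total s t with h | h
  · exact h1 s hs t ht h
  · rw [dist_comm, dist_comm s t]
    exact h1 t ht s hs h

theorem len_conical : ConicalOn (len φ 0) (Icc 0 1) := by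
  intro x hx
  obtain ⟨r, hr, H⟩ := φ.conical x hx
  refine ⟨r, hr, fun v hv hxv t ht => ⟨(H v hv hxv t ht).1, ?_⟩⟩
  have key : ∀ t ∈ Icc (0 : ℝ) 1, μH[1] (φ.toFun '' uIcc x (x + t • v)) =
      ENNReal.ofReal (t * ‖φ.toFun (x + v) - φ.toFun x‖) := by
    intro t ht
    have h1 : φ.toFun '' uIcc x (x + t • v) =
        segment ℝ (φ.toFun x) (φ.toFun x + t • (φ.toFun (x + v) - φ.toFun x)) := by
      rw [← segment_eq_uIcc, segment_eq_image', segment_eq_image', image_image]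
      refine image_congr fun s hs => ?_
      have h2 : s * t ∈ Icc (0 : ℝ) 1 := ⟨mul_nonneg hs.1 ht.1, mul_le_one₀ hs.2 ht.1 ht.2⟩
      rw [add_sub_cancel_left, add_sub_cancel_left, smul_smul, smul_smul]
      exact (H v hv hxv _ h2).2
    rw [h1, hausdorffMeasure_segment, edist_dist, dist_self_add_right, norm_smul,
      Real.norm_of_nonneg ht.1]
  have h1 : (1 : ℝ) ∈ Icc (0 : ℝ) 1 := right_mem_Icc.2 zero_le_one
  have k1 := key 1 h1
  have k2 := key t ht
  have k3 := (H v hv hxv t ht).1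
  rw [one_smul, one_mul] at k1
  have n1 : 0 ≤ t * ‖φ.toFun (x + v) - φ.toFun x‖ := mul_nonneg ht.1 (norm_nonneg _)
  rcases le_total 0 v with h | h
  · have h2 : x ≤ x + t • v := le_add_of_nonneg_right (mul_nonneg ht.1 h)
    have h3 : x ≤ x + v := le_add_of_nonneg_right h
    rw [uIcc_of_le h3] at k1
    rw [uIcc_of_le h2] at k2
    rw [len_add φ hx k3 h2, len_add φ hx hxv h3, add_sub_cancel_left, len.eq_1 φ x (x + t • v),
      len.eq_1 φ x (x + v), k1, k2,
      ENNReal.toReal_ofReal n1, ENNReal.toReal_ofReal (norm_nonneg _), smul_eq_mul t ‖_‖]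
  · have h2 : x + t • v ≤ x := add_le_of_nonpos_right (mul_nonpos_of_nonneg_of_nonpos ht.1 h)
    have h3 : x + v ≤ x := add_le_of_nonpos_right h
    rw [uIcc_of_ge h3] at k1
    rw [uIcc_of_ge h2] at k2
    have h4 := len_add φ k3 hx h2
    have h5 := len_add φ hxv hx h3
    rw [len.eq_1 φ (x + t • v) x, k2, ENNReal.toReal_ofReal n1] at h4
    rw [len.eq_1 φ (x + v) x, k1, ENNReal.toReal_ofReal (norm_nonneg _)] at h5
    rw [smul_eq_mul t (_ - _)]
    linear_combination t * h5 - h4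

theorem len_zero : len φ 0 0 = 0 := by
  have h := len_add φ (left_mem_Icc.2 zero_le_one) (left_mem_Icc.2 zero_le_one) le_rfl
  linarith

/-- normalising a strictly increasing PL function -/
theorem exists_norm {L : ℝ → ℝ} (hm : StrictMonoOn L (Icc 0 1)) (hc : ContinuousOn L (Icc 0 1))
    (hL : ConicalOn L (Icc 0 1)) (h0 : L 0 = 0) : ∃ ρ : ConHomeo (Icc (0 : ℝ) 1) (Icc (0 : ℝ) 1),
    ρ.invFun 0 = 0 ∧ ρ.invFun 1 = 1 ∧ ∀ s, L s = L 1 * ρ.toFun s := by
  have m0 : (0 : ℝ) ∈ Icc (0 : ℝ) 1 := left_mem_Icc.2 zero_le_one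
  have m1 : (1 : ℝ) ∈ Icc (0 : ℝ) 1 := right_mem_Icc.2 zero_le_one
  have hp : 0 < L 1 := h0 ▸ hm m0 m1 one_pos
  have hm' : StrictMonoOn (fun s => (L 1)⁻¹ • L s) (Icc 0 1) := fun s hs t ht h =>
    mul_lt_mul_of_pos_left (hm hs ht h) (inv_pos.2 hp)
  have hc' : ContinuousOn (fun s => (L 1)⁻¹ • L s) (Icc 0 1) := hc.const_smul (L 1)⁻¹
  have e0 : (L 1)⁻¹ • L 0 = 0 := by rw [h0, smul_zero]
  have e1 : (L 1)⁻¹ • L 1 = 1 := inv_mul_cancel₀ hp.ne'
  obtain ⟨ρ, hρ⟩ := exists_ofCompact (Y := Icc (0 : ℝ) 1) isCompact_Icc _ hc' hm'.injOn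
    (hL.const_smul _) (by
      rw [hc'.image_Icc_of_monotoneOn zero_le_one hm'.monotoneOn, e0, e1])
  refine ⟨ρ, ?_, ?_, fun s => ?_⟩
  · have h := ρ.left_inv m0
    rwa [show ρ.toFun 0 = 0 by rw [hρ]; exact e0] at h
  · have h := ρ.left_inv m1
    rwa [show ρ.toFun 1 = 1 by rw [hρ]; exact e1] at h
  · rw [hρ]
    exact (mul_inv_cancel_left₀ hp.ne' _).symm

/-- reparametrisation by the length -/
theorem exists_speed : ∃ χ : ConHomeo (Icc (0 : ℝ) 1) A, χ.toFun 0 = φ.toFun 0 ∧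
    χ.toFun 1 = φ.toFun 1 ∧ ∀ s ∈ Icc (0 : ℝ) 1, ∀ t ∈ Icc (0 : ℝ) 1,
      dist (χ.toFun s) (χ.toFun t) ≤ len φ 0 1 * dist s t := by
  obtain ⟨ρ, k0, k1, hρ⟩ := exists_norm (len_strictMono φ) (len_cont φ) (len_conical φ) (len_zero φ)
  have hL : 0 ≤ len φ 0 1 := ENNReal.toReal_nonneg
  have key : ∀ s ∈ Icc (0 : ℝ) 1, ∀ t ∈ Icc (0 : ℝ) 1, s ≤ t →
      dist (φ.toFun s) (φ.toFun t) ≤ len φ 0 1 * dist (ρ.toFun s) (ρ.toFun t) := by
    intro s hs t ht hst
    have h1 := len_add φ hs ht hst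
    have h2 := dist_le_len φ hs ht hst
    have h3 := mul_le_mul_of_nonneg_left (le_abs_self (ρ.toFun t - ρ.toFun s)) hL
    rw [dist_comm (ρ.toFun s), Real.dist_eq]
    linarith [hρ s, hρ t]
  refine ⟨ρ.symm.trans φ, congrArg φ.toFun k0, congrArg φ.toFun k1, fun s hs t ht => ?_⟩
  change dist (φ.toFun (ρ.invFun s)) (φ.toFun (ρ.invFun t)) ≤ _
  conv_rhs => rw [← ρ.right_inv hs, ← ρ.right_inv ht]
  rcases le_total (ρ.invFun s) (ρ.invFun t) with h | h
  · exact key _ (ρ.mapsTo_inv hs) _ (ρ.mapsTo_inv ht) h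
  · rw [dist_comm, dist_comm (ρ.toFun _)]
    exact key _ (ρ.mapsTo_inv ht) _ (ρ.mapsTo_inv hs) h

end Speed

end Sq

open Sq in
theorem csp : CSP := by
  intro A p q x y hA hxy
  have hpq := hA.ne
  obtain ⟨φ, h0, h1⟩ := hA
  obtain ⟨χ, c0, c1, hχ⟩ := exists_speed φ
  obtain ⟨ψ, hψ⟩ := exists_line hxy
  have m0 : (0 : ℝ) ∈ Icc (0 : ℝ) 1 := left_mem_Icc.2 zero_le_one
  have m1 : (1 : ℝ) ∈ Icc (0 : ℝ) 1 := right_mem_Icc.2 zero_le_one
  have key : ∀ t ∈ Icc (0 : ℝ) 1, (ψ.symm.trans χ).toFun (AffineMap.lineMap x y t) = χ.toFun t :=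
    fun t ht => by
      rw [← hψ]
      exact congrArg χ.toFun (ψ.left_inv ht)
  have hl : μH[1] A = ENNReal.ofReal (len φ 0 1) := by
    rw [len, ENNReal.ofReal_toReal (hm_ne_top φ m0 m1), φ.image_eq]
  have hl0 : 0 ≤ len φ 0 1 := ENNReal.toReal_nonneg
  refine ⟨ψ.symm.trans χ, ?_, ?_, fun u hu w hw => ?_, fun h t ht => ?_⟩
  · have h2 := key 0 m0
    rwa [AffineMap.lineMap_apply_zero, c0, h0] at h2
  · have h2 := key 1 m1
    rwa [AffineMap.lineMap_apply_one, c1, h1] at h2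
  · rw [segment_eq_image_lineMap] at hu hw
    obtain ⟨s, hs, rfl⟩ := hu
    obtain ⟨t, ht, rfl⟩ := hw
    rw [key s hs, key t ht, hl, edist_dist, edist_dist, edist_dist,
      ← ENNReal.ofReal_mul dist_nonneg, ← ENNReal.ofReal_mul hl0, dist_lineMap_lineMap,
      ← mul_assoc]
    exact ENNReal.ofReal_le_ofReal (mul_le_mul_of_nonneg_right (hχ s hs t ht) dist_nonneg)
  · rw [key t ht]
    have h2 : len φ 0 1 = dist p q := by
      rw [len, φ.image_eq, h, hausdorffMeasure_segment, dist_edist]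
    have h3 : χ.toFun t ∈ segment ℝ p q := h ▸ χ.mapsTo ht
    rw [segment_eq_image_lineMap] at h3
    obtain ⟨s, hs, h3⟩ := h3
    have h4 := hχ 0 m0 t ht
    have h5 := hχ t ht 1 m1
    have h6 : 0 < dist p q := dist_pos.2 hpq
    rw [c0, h0, ← h3, h2, dist_left_lineMap, Real.norm_of_nonneg hs.1, dist_comm 0 t,
      Real.dist_0_eq_abs, abs_of_nonneg ht.1] at h4
    rw [c1, h1, ← h3, h2, dist_lineMap_right, Real.norm_of_nonneg (sub_nonneg.2 hs.2),
      dist_comm t 1, Real.dist_eq, abs_of_nonneg (sub_nonneg.2 ht.2)] at h5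
    have h7 : s = t := le_antisymm (by nlinarith) (by nlinarith)
    rw [← h3, h7]

end P073
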