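import Vale.Agent.P073Z.SQ.Len

/-!
# Squeezing the cube
-/

open Set Metric Topology Filter MeasureTheory
open scoped ENNReal NNReal

namespace P073

open Sh

namespace Sq

/-- the clamp to the unit interval -/
noncomputable def wt (u : ℝ) : ℝ := max 0 (min 1 u)

theorem wt_nonneg (u : ℝ) : 0 ≤ wt u := le_max_left _ _

theorem wt_le_one (u : ℝ) : wt u ≤ 1 := max_le zero_le_one (min_le_left _ _)

theorem wt_mono : Monotone wt := fun _ _ h => max_le_max le_rfl (min_le_min le_rfl h)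

theorem wt_of_nonpos {u : ℝ} (h : u ≤ 0) : wt u = 0 := max_eq_left ((min_le_right _ _).trans h)

theorem wt_of_one_le {u : ℝ} (h : 1 ≤ u) : wt u = 1 := by
  rw [wt, min_eq_left h, max_eq_right zero_le_one]

theorem wt_mul_mono {s t : ℝ} (c : ℝ) (hs : 0 ≤ s) (h : s ≤ t) : wt (s * c) ≤ wt (t * c) := by
  rcases le_total 0 c with hc | hc
  · exact wt_mono (mul_le_mul_of_nonneg_right h hc)
  · rw [wt_of_nonpos (mul_nonpos_of_nonneg_of_nonpos hs hc)]
    exact wt_nonneg _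

theorem continuous_wt : Continuous wt := by
  unfold wt
  fun_prop

theorem conicalOn_wt : ConicalOn wt univ :=
  (conicalOn_const 0 conicalSet_univ).rmax (((conicalOn_const 1 conicalSet_univ).rmin
    (conicalOn_id conicalSet_univ) continuousOn_const continuousOn_id)) continuousOn_const
    (by fun_prop)

/-- an odd monotone function commutes with the sup norm -/
theorem norm_odd {f : ℝ → ℝ} (hm : Monotone f) (ho : ∀ t, f (-t) = -f t) (z : E3) :
    ‖fun i => f (z i)‖ = f ‖z‖ := by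
  have h0 : f 0 = 0 := by
    have h := ho 0
    rw [neg_zero] at h
    linarith
  have h1 : ∀ t, |f t| = f |t| := fun t => by
    rcases le_total 0 t with h | h
    · rw [abs_of_nonneg h, abs_of_nonneg (h0 ▸ hm h)]
    · rw [abs_of_nonpos h, abs_of_nonpos (h0 ▸ hm h), ho]
  refine le_antisymm ((pi_norm_le_iff_of_nonneg (h0 ▸ hm (norm_nonneg z))).2 fun i => ?_) ?_
  · rw [Real.norm_eq_abs, h1]
    exact hm (norm_le_pi_norm z i)
  · obtain ⟨i, -, hi⟩ := Finset.univ.exists_max_image (fun i => ‖z i‖) Finset.univ_nonempty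
    rw [le_antisymm ((pi_norm_le_iff_of_nonneg (norm_nonneg (z i))).2
      fun j => hi j (Finset.mem_univ j)) (norm_le_pi_norm z i), Real.norm_eq_abs, ← h1]
    exact norm_le_pi_norm (fun i => f (z i)) i

theorem sq_mono_right {a t s s' : ℝ} (ha : a ≤ 1) (ht : 0 ≤ t) (h : s ≤ s') (h' : s' ≤ 1) :
    Sh.sq a 1 t s ≤ Sh.sq a 1 t s' := by
  have h1 : 0 ≤ (1 - a) * t := mul_nonneg (sub_nonneg.2 ha) ht
  unfold Sh.sq
  simp only [max_def, min_def]
  split_ifs <;> linarith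

theorem sq_zero_right {a t : ℝ} (ha : 0 ≤ a) (ha' : a ≤ 1) (ht : |t| ≤ 1) :
    Sh.sq a 1 t 0 = a * t := by
  obtain ⟨h1, h2⟩ := abs_le.1 ht
  unfold Sh.sq
  rw [min_eq_left (by nlinarith), max_eq_left (by nlinarith)]
  ring

theorem abs_sq_sub_le {a : ℝ} (ha : 0 ≤ a) (ha' : a ≤ 1) (t t' s s' : ℝ) :
    |Sh.sq a 1 t s - Sh.sq a 1 t' s'| ≤ 2 * |t - t'| + |s - s'| := by
  have h1 := abs_max_sub_max_le_max (min ((1 - a) * t) (1 - s)) (-(1 - s))
    (min ((1 - a) * t') (1 - s')) (-(1 - s'))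
  have h2 := abs_min_sub_min_le_max ((1 - a) * t) (1 - s) ((1 - a) * t') (1 - s')
  have h3 : |(1 - a) * t - (1 - a) * t'| ≤ |t - t'| := by
    rw [← mul_sub, abs_mul, abs_of_nonneg (sub_nonneg.2 ha')]
    nlinarith [abs_nonneg (t - t')]
  have h4 : |1 - s - (1 - s')| = |s - s'| := by
    rw [← abs_neg]
    congr 1
    ring
  have h5 : |-(1 - s) - -(1 - s')| = |s - s'| := by
    congr 1
    ring
  rw [h4] at h2
  rw [h5] at h1
  have h6 := h1.trans (max_le (h2.trans (max_le (h3.trans (le_add_of_nonneg_right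
    (abs_nonneg (s - s')))) (le_add_of_nonneg_left (abs_nonneg _))))
    (le_add_of_nonneg_left (abs_nonneg _)))
  unfold Sh.sq
  rw [one_mul, one_mul, sub_sub_sub_comm]
  linarith [abs_sub (t - t') (max (min ((1 - a) * t) (1 - s)) (-(1 - s)) -
    max (min ((1 - a) * t') (1 - s')) (-(1 - s')))]

/-- the level of the squeeze -/
noncomputable def lev (ε r : ℝ) : ℝ := 1 - wt ((1 - r) * ε⁻¹)

/-- the squeeze -/
noncomputable def psi (ε : ℝ) (z : E3) : E3 := fun i => Sh.sq ε 1 (z i) (lev ε ‖z‖)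

variable {ε : ℝ}

theorem lev_le_one (ε r : ℝ) : lev ε r ≤ 1 := sub_le_self _ (wt_nonneg _)

theorem lev_mono (hε : 0 < ε) : Monotone (lev ε) := fun _ _ h =>
  sub_le_sub_left (wt_mono (mul_le_mul_of_nonneg_right (sub_le_sub_left h 1)
    (inv_pos.2 hε).le)) 1

theorem continuous_lev (ε : ℝ) : Continuous (lev ε) :=
  continuous_const.sub (continuous_wt.comp (by fun_prop))

theorem conicalOn_lev (ε : ℝ) : ConicalOn (lev ε) univ := by
  have h1 : ConicalOn (fun r : ℝ => (1 - r) * ε⁻¹) univ :=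
    (((conicalOn_const 1 conicalSet_univ).sub (conicalOn_id conicalSet_univ)).const_smul ε⁻¹).congr
      fun r _ => mul_comm _ _
  exact (conicalOn_const 1 conicalSet_univ).sub
    (conicalOn_wt.comp h1 (mapsTo_univ _ _) (by fun_prop))

theorem continuous_psi (ε : ℝ) : Continuous (psi ε) :=
  continuous_pi fun i => (continuous_sq ε 1).comp (f := fun z : E3 => (z i, lev ε ‖z‖))
    ((continuous_apply i).prodMk ((continuous_lev ε).comp continuous_norm))

theorem conicalOn_psi (ε : ℝ) : ConicalOn (psi ε) univ := by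
  intro z hz
  refine conicalWithinAt_pi (conicalSet_univ z hz) fun i => ?_
  have h1 : ConicalOn (fun z : E3 => (z i, lev ε ‖z‖)) univ :=
    (conicalOn_proj i).prodMk ((conicalOn_lev ε).comp conicalOn_norm_pi (mapsTo_univ _ _)
      continuous_norm.continuousOn)
  exact (conicalOn_sq ε 1).comp h1 (mapsTo_univ _ _)
    ((continuous_apply i).prodMk ((continuous_lev ε).comp continuous_norm)).continuousOn z hz

theorem psi_of_one_le (hε : 0 < ε) {z : E3} (hz : 1 ≤ ‖z‖) : psi ε z = z := by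
  funext i
  rw [psi, lev, wt_of_nonpos (mul_nonpos_of_nonpos_of_nonneg (sub_nonpos.2 hz) (inv_pos.2 hε).le),
    sub_zero, sq_top, one_mul]

theorem psi_of_le (hε : 0 < ε) (h1 : ε ≤ 1) {z : E3} (hz : ‖z‖ ≤ 1 - ε) : psi ε z = ε • z := by
  funext i
  rw [psi, lev, wt_of_one_le (by rw [← div_eq_mul_inv, le_div_iff₀ hε]; linarith), sub_self,
    sq_zero_right hε.le h1 ((norm_le_pi_norm z i).trans (by linarith))]
  rfl

theorem dist_psi_le (hε : 0 < ε) (h1 : ε ≤ 1) (z z' : E3) :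
    dist (psi ε z) (psi ε z') ≤ 2 * dist z z' + |lev ε ‖z‖ - lev ε ‖z'‖| := by
  refine (dist_pi_le_iff (by positivity)).2 fun i => ?_
  refine (abs_sq_sub_le hε.le h1 _ _ _ _).trans ?_
  have h2 : |z i - z' i| ≤ dist z z' := dist_le_pi_dist z z' i
  linarith

/-- the squeeze is a PL homeomorphism of the cube -/
theorem exists_psi (hε : 0 < ε) (h1 : ε ≤ 1) :
    ∃ Q : ConHomeo (closedBall (0 : E3) 1) (closedBall (0 : E3) 1), Q.toFun = psi ε := by
  have hn : ∀ (r : ℝ) (z : E3), ‖fun i => Sh.sq ε 1 (z i) (lev ε r)‖ = Sh.sq ε 1 ‖z‖ (lev ε r) :=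
    fun r z => norm_odd (sq_strictMono hε h1 _).monotone (sq_neg (lev_le_one ε r)) z
  have hm : StrictMonoOn (fun r => Sh.sq ε 1 r (lev ε r)) (Ici 0) := fun r _ r' hr' h =>
    (sq_strictMono hε h1 _ h).trans_le (sq_mono_right h1 hr' (lev_mono hε h.le) (lev_le_one _ _))
  have e0 : ∀ s ≤ 1, Sh.sq ε 1 0 s = 0 := fun s hs => by
    have h := sq_neg (a := ε) hs 0
    rw [neg_zero] at h
    linarith
  have e1 : Sh.sq ε 1 1 (lev ε 1) = 1 := by
    rw [lev, sub_self, zero_mul, wt_of_nonpos le_rfl, sub_zero, sq_top, one_mul]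
  refine exists_ofCompact (isCompact_closedBall _ _) _ (continuous_psi ε).continuousOn
    (fun z _ z' _ h => ?_) ((conicalOn_psi ε).mono (Convex.conicalSet (convex_closedBall _ _))
      (subset_univ _)) (Subset.antisymm ?_ fun y hy => ?_)
  · have h2 : ‖z‖ = ‖z'‖ := hm.injOn (norm_nonneg z) (norm_nonneg z')
      ((hn _ z).symm.trans ((congrArg norm h).trans (hn _ z')))
    funext i
    have h3 := congrFun h i
    rw [psi, psi, h2] at h3
    exact (sq_strictMono hε h1 _).injective h3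
  · rintro _ ⟨z, hz, rfl⟩
    rw [mem_closedBall_zero_iff] at hz ⊢
    exact (hn _ z).trans_le ((hm.monotoneOn (norm_nonneg z) (mem_Ici.2 zero_le_one) hz).trans e1.le)
  · rw [mem_closedBall_zero_iff] at hy
    have hc : Continuous fun r => Sh.sq ε 1 r (lev ε r) :=
      (continuous_sq ε 1).comp (f := fun r : ℝ => (r, lev ε r))
        (continuous_id.prodMk (continuous_lev ε))
    obtain ⟨r, hr, h2⟩ := intermediate_value_Icc zero_le_one hc.continuousOn
      (show ‖y‖ ∈ Icc (Sh.sq ε 1 0 (lev ε 0)) (Sh.sq ε 1 1 (lev ε 1)) by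
        rw [e0 _ (lev_le_one _ _), e1]; exact ⟨norm_nonneg y, hy⟩)
    have hc' : Continuous fun t => Sh.sq ε 1 t (lev ε r) :=
      (continuous_sq ε 1).comp (f := fun t : ℝ => (t, lev ε r)) (by fun_prop)
    have h3 : ∀ i, ∃ t, Sh.sq ε 1 t (lev ε r) = y i := fun i => by
      obtain ⟨t, -, ht⟩ := intermediate_value_Icc (neg_le_self hr.1) hc'.continuousOn
        (show y i ∈ Icc (Sh.sq ε 1 (-r) (lev ε r)) (Sh.sq ε 1 r (lev ε r)) by
          rw [sq_neg (lev_le_one _ _), show Sh.sq ε 1 r (lev ε r) = ‖y‖ from h2]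
          exact abs_le.1 (norm_le_pi_norm y i))
      exact ⟨t, ht⟩
    choose z hz using h3
    have h4 : ‖z‖ = r := (sq_strictMono hε h1 (lev ε r)).injective
      ((hn r z).symm.trans ((congrArg norm (funext hz)).trans h2.symm))
    refine ⟨z, mem_closedBall_zero_iff.2 (h4 ▸ hr.2), funext fun i => ?_⟩
    rw [psi, h4, hz]

/-- a short ray starting on the boundary has a short image -/
theorem hm_ray (hε : 0 < ε) (h1 : ε ≤ 1) {c : ℝ → E3} {p u : E3} {k : ℝ} (hu : ‖u‖ ≤ 1)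
    (hc : ∀ s ∈ Icc (0 : ℝ) 1, c s = p + s • u ∧ ‖c s‖ = 1 + s * k) :
    μH[1] (psi ε '' (c '' Icc 0 1)) ≤ 3 := by
  have h2 := hm_le_of_mono (f := fun s => psi ε (c s)) (a := 0) (b := 1)
    (m := fun s => 2 * s + wt (s * (-k * ε⁻¹))) fun s hs t ht hst => by
      have h3 := dist_psi_le hε h1 (c s) (c t)
      have h4 : dist (c s) (c t) ≤ t - s := by
        rw [(hc s hs).1, (hc t ht).1, dist_add_left, dist_comm, dist_eq_norm, ← sub_smul, norm_smul,
          Real.norm_of_nonneg (sub_nonneg.2 hst)]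
        exact mul_le_of_le_one_right (sub_nonneg.2 hst) hu
      have h5 : ∀ s ∈ Icc (0 : ℝ) 1, lev ε ‖c s‖ = 1 - wt (s * (-k * ε⁻¹)) := fun s hs => by
        rw [lev, (hc s hs).2]
        congr 2
        ring
      have h6 := wt_mul_mono (-k * ε⁻¹) hs.1 hst
      rw [h5 s hs, h5 t ht, abs_of_nonneg (by linarith)] at h3
      linarith
  rw [image_image]
  refine h2.trans ?_
  rw [← ENNReal.ofReal_ofNat]
  refine ENNReal.ofReal_le_ofReal ?_
  linarith [wt_le_one (1 * (-k * ε⁻¹)), wt_nonneg (0 * (-k * ε⁻¹))]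

/-- near a crossing point the image is short -/
theorem exists_local {γ : ℝ → E3} (hγ : PLOn γ (Icc 0 1)) {x : ℝ} (hx : x ∈ Icc (0 : ℝ) 1)
    (h : ‖γ x‖ = 1) : ∃ r > 0, ∀ ε : ℝ, 0 < ε → ε ≤ 1 →
      μH[1] (psi ε '' (γ '' (Icc 0 1 ∩ ball x r))) ≤ 6 := by
  obtain ⟨r, hr, H⟩ := (hγ.2.prodMk
    (conicalOn_norm_pi.comp hγ.2 (mapsTo_univ _ _) hγ.1)) x hx
  obtain ⟨r', hr', H'⟩ := exists_radius_of_nhdsWithin (p := fun y => dist (γ y) (γ x) < 1)
    (hγ.1 x hx (ball_mem_nhds _ one_pos))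
  have hρ : 0 < min r r' := lt_min hr hr'
  refine ⟨min r r', hρ, fun ε hε h1 => ?_⟩
  have key : ∀ y ∈ Icc (0 : ℝ) 1, |y - x| ≤ min r r' → μH[1] (psi ε '' (γ '' uIcc x y)) ≤ 3 := by
    intro y hy hyx
    have h2 : x + (y - x) ∈ Icc (0 : ℝ) 1 := by rwa [add_sub_cancel]
    have h3 := H' (y - x) (hyx.trans (min_le_right _ _)) h2
    rw [← segment_eq_uIcc, segment_eq_image', image_image γ]
    refine hm_ray hε h1 (p := γ x) (u := γ (x + (y - x)) - γ x) (k := ‖γ (x + (y - x))‖ - 1)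
      (by rw [← dist_eq_norm]; exact h3.le) fun s hs => ?_
    have h4 := (H (y - x) (hyx.trans (min_le_left _ _)) h2 s hs).2
    refine ⟨congrArg Prod.fst h4, ?_⟩
    have h5 : ‖γ (x + s • (y - x))‖ = ‖γ x‖ + s * (‖γ (x + (y - x))‖ - ‖γ x‖) :=
      congrArg Prod.snd h4
    rwa [h] at h5
  have h2 : Icc 0 1 ∩ ball x (min r r') ⊆
      uIcc x (max 0 (x - min r r')) ∪ uIcc x (min 1 (x + min r r')) := by
    rintro y ⟨hy, hb⟩
    rw [Real.ball_eq_Ioo] at hb
    rcases le_total y x with h3 | h3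
    · exact Or.inl (Icc_subset_uIcc' ⟨max_le hy.1 hb.1.le, h3⟩)
    · exact Or.inr (Icc_subset_uIcc ⟨h3, le_min hy.2 hb.2.le⟩)
  refine (measure_mono (image_mono (image_mono h2))).trans ?_
  rw [image_union, image_union]
  refine (measure_union_le _ _).trans ((add_le_add (key _ ⟨le_max_left _ _,
    max_le zero_le_one (by linarith [hx.2])⟩ (abs_le.2 ⟨?_, ?_⟩)) (key _
    ⟨le_min zero_le_one (by linarith [hx.1]), min_le_left _ _⟩ (abs_le.2 ⟨?_, ?_⟩))).trans
    (by norm_num))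
  · linarith [le_max_right 0 (x - min r r')]
  · linarith [max_le hx.1 (show x - min r r' ≤ x by linarith)]
  · linarith [le_min hx.2 (show x ≤ x + min r r' by linarith)]
  · linarith [min_le_right 1 (x + min r r')]

/-- **the squeezed curve** is short, up to the crossings -/
theorem eventually_cube {γ : ℝ → E3} (hγ : PLOn γ (Icc 0 1)) {θ : ℝ≥0∞} (hθ : 0 < θ) :
    ∀ᶠ ε in 𝓝[>] (0 : ℝ), μH[1] (psi ε '' (γ '' Icc 0 1 ∩ closedBall 0 1)) ≤
      6 * ({t ∈ Icc (0 : ℝ) 1 | ‖γ t‖ = 1}.encard : ℝ≥0∞) + θ := by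
  classical
  rcases {t ∈ Icc (0 : ℝ) 1 | ‖γ t‖ = 1}.finite_or_infinite with hT | hT
  swap
  · refine Eventually.of_forall fun ε => ?_
    rw [hT.encard_eq, ENat.toENNReal_top, ENNReal.mul_top (by norm_num), top_add]
    exact le_top
  choose! r hr H using fun x (hx : x ∈ {t ∈ Icc (0 : ℝ) 1 | ‖γ t‖ = 1}) =>
    exists_local hγ hx.1 hx.2
  have hR : IsCompact ((Icc 0 1 ∩ γ ⁻¹' closedBall 0 1) \ ⋃ x ∈ hT.toFinset, ball x (r x)) :=
    (isCompact_Icc.of_isClosed_subset (hγ.1.preimage_isClosed_of_isClosed isClosed_Icc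
      isClosed_closedBall) inter_subset_left).diff (isOpen_biUnion fun _ _ => isOpen_ball)
  obtain ⟨δ, hδ, hδ'⟩ := hR.exists_forall_le' (f := fun t => 1 - ‖γ t‖) (a := 0)
    (continuousOn_const.sub (hγ.1.norm.mono fun t ht => ht.1.1)) fun t ht => by
      refine sub_pos.2 (lt_of_le_of_ne (mem_closedBall_zero_iff.1 ht.1.2) fun h => ht.2 ?_)
      exact mem_biUnion (hT.mem_toFinset.2 ⟨ht.1.1, h⟩) (mem_ball_self (hr t ⟨ht.1.1, h⟩))
  have h0 : LocCone (Icc (0 : ℝ) 1) := by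
    rw [← segment_eq_Icc zero_le_one]
    exact locCone_segment 0 1
  obtain ⟨M, hM⟩ := lip isCompact_Icc h0 hγ
  have hL : μH[1] (γ '' Icc 0 1) ≠ ⊤ := by
    refine ((hM.hausdorffMeasure_image_le zero_le_one).trans_lt ?_).ne
    rw [ENNReal.rpow_one, hausdorffMeasure_real, Real.volume_Icc]
    exact ENNReal.mul_lt_top ENNReal.coe_lt_top ENNReal.ofReal_lt_top
  have h1 : Tendsto (fun ε : ℝ => (‖ε‖₊ : ℝ≥0∞) * μH[1] (γ '' Icc 0 1)) (𝓝 0) (𝓝 0) := by
    have h2 := ((ENNReal.continuous_mul_const hL).comp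
      (ENNReal.continuous_coe.comp continuous_nnnorm)).tendsto (0 : ℝ)
    simpa [Function.comp_def] using h2
  filter_upwards [self_mem_nhdsWithin, nhdsWithin_le_nhds (h1.eventually (ge_mem_nhds hθ)),
    nhdsWithin_le_nhds (ge_mem_nhds hδ), nhdsWithin_le_nhds (ge_mem_nhds one_pos)]
    with ε hε h2 h3 h4
  have h5 : psi ε '' (γ '' Icc 0 1 ∩ closedBall 0 1) ⊆
      (⋃ x ∈ hT.toFinset, psi ε '' (γ '' (Icc 0 1 ∩ ball x (r x)))) ∪
        (fun z => ε • z) '' (γ '' Icc 0 1) := by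
    rintro _ ⟨_, ⟨⟨t, ht, rfl⟩, hb⟩, rfl⟩
    by_cases h : t ∈ ⋃ x ∈ hT.toFinset, ball x (r x)
    · obtain ⟨x, hx, h6⟩ := mem_iUnion₂.1 h
      exact Or.inl (mem_biUnion hx ⟨_, ⟨t, ⟨ht, h6⟩, rfl⟩, rfl⟩)
    · have h6 := hδ' t ⟨⟨ht, hb⟩, h⟩
      exact Or.inr ⟨_, ⟨t, ht, rfl⟩, (psi_of_le hε h4 (by linarith)).symm⟩
  refine (measure_mono h5).trans ((measure_union_le _ _).trans (add_le_add ?_ ?_))
  · refine (measure_biUnion_finset_le _ _).trans ((Finset.sum_le_card_nsmul _ _ 6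
      fun x hx => H x (hT.mem_toFinset.1 hx) ε hε h4).trans ?_)
    rw [hT.encard_eq_coe_toFinset_card, nsmul_eq_mul, mul_comm, ENat.toENNReal_coe]
  · refine (((lipschitzWith_smul ε).hausdorffMeasure_image_le zero_le_one _).trans ?_).trans h2
    rw [ENNReal.rpow_one]

end Sq

end P073
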